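import Vale.Agent.P022.H236.Esf

/-!
# P022-L3, chapter G, row [ESA]: expansions at the cusp of products over `(τ + N j) / ℓ`

`Ev F z v`: the power series `F` converges at `z` to `v`.  `Exq N m F f`: near the cusp
`f τ = t ^ m F (t)`, `t = exp (2 π i τ / N)`.
-/

set_option autoImplicit false

namespace Vale.Agent.P022.H236

open PowerSeries UpperHalfPlane Function.Periodic Filter Topology
open scoped Manifold

/-! ### convergence of power series at a point -/

/-- the power series `F` converges at `z` to `v` -/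
def Ev (F : PowerSeries ℂ) (z v : ℂ) : Prop := HasSum (fun n => coeff n F * z ^ n) v

section ev
variable {F G : PowerSeries ℂ} {z a b : ℂ}

theorem Ev.unique (h : Ev F z a) (h' : Ev F z b) : a = b := HasSum.unique h h'

theorem Ev.mul (hF : Ev F z a) (hG : Ev G z b) : Ev (F * G) z (a * b) := by
  have hf := summable_norm_iff.2 hF.summable
  have hg := summable_norm_iff.2 hG.summable
  have h1 := summable_norm_sum_mul_antidiagonal_of_summable_norm hf hg
  have h2 := tsum_mul_tsum_eq_tsum_sum_antidiagonal_of_summable_norm hf hg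
  rw [hF.tsum_eq, hG.tsum_eq] at h2
  have h3 : (fun n => coeff n (F * G) * z ^ n) = fun n => ∑ kl ∈ Finset.HasAntidiagonal.antidiagonal n,
      (coeff kl.1 F * z ^ kl.1) * (coeff kl.2 G * z ^ kl.2) := by
    funext n
    rw [coeff_mul, Finset.sum_mul]
    refine Finset.sum_congr rfl fun kl hkl => ?_
    rw [← Finset.HasAntidiagonal.mem_antidiagonal.1 hkl, pow_add]
    ring
  rw [Ev, h3, h2]
  exact h1.of_norm.hasSum

theorem Ev.one : Ev 1 z 1 := by
  have h := hasSum_single (f := fun n => coeff n (1 : PowerSeries ℂ) * z ^ n) 0 (by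
    intro n hn
    show coeff n (1 : PowerSeries ℂ) * z ^ n = 0
    rw [coeff_one, if_neg hn, zero_mul])
  simpa [Ev] using h

theorem Ev.add (hF : Ev F z a) (hG : Ev G z b) : Ev (F + G) z (a + b) := by
  have := HasSum.add hF hG
  simpa [Ev, add_mul] using this

theorem Ev.smul (hF : Ev F z a) (c : ℂ) : Ev (c • F) z (c * a) := by
  have := HasSum.mul_left c hF
  simpa [Ev, mul_assoc] using this

theorem Ev.prod {ι : Type*} (s : Finset ι) {F : ι → PowerSeries ℂ} {v : ι → ℂ}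
    (h : ∀ i ∈ s, Ev (F i) z (v i)) : Ev (∏ i ∈ s, F i) z (∏ i ∈ s, v i) := by
  classical
  induction s using Finset.induction_on with
  | empty => simpa using Ev.one
  | insert i s hi ih =>
    rw [Finset.prod_insert hi, Finset.prod_insert hi]
    exact (h i (Finset.mem_insert_self i s)).mul
      (ih fun j hj => h j (Finset.mem_insert_of_mem hj))

theorem Ev.pow (h : Ev F z a) (n : ℕ) : Ev (F ^ n) z (a ^ n) := by
  have := Ev.prod (Finset.range n) (F := fun _ => F) (v := fun _ => a) fun _ _ => h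
  simpa using this

theorem Ev.rescale {c : ℂ} (h : Ev F (c * z) a) : Ev (PowerSeries.rescale c F) z a := by
  have e : (fun n => coeff n (PowerSeries.rescale c F) * z ^ n) =
      fun n => coeff n F * (c * z) ^ n := by
    funext n
    rw [coeff_rescale, mul_pow]; ring
  rw [Ev, e]
  exact h

theorem ev_expand_iff {ℓ : ℕ} (hl : ℓ ≠ 0) : Ev (expand ℓ hl F) z a ↔ Ev F (z ^ ℓ) a := by
  have hinj : Function.Injective fun n : ℕ => ℓ * n := fun m n h =>
    Nat.eq_of_mul_eq_mul_left (Nat.pos_of_ne_zero hl) h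
  have hoff : ∀ n : ℕ, n ∉ Set.range (fun n : ℕ => ℓ * n) →
      coeff n (expand ℓ hl F) * z ^ n = 0 := by
    intro n hn
    rw [coeff_expand, if_neg, zero_mul]
    rintro ⟨m, rfl⟩
    exact hn ⟨m, rfl⟩
  have h := hinj.hasSum_iff (f := fun n => coeff n (expand ℓ hl F) * z ^ n) (a := a) hoff
  have e : ((fun n => coeff n (expand ℓ hl F) * z ^ n) ∘ fun n : ℕ => ℓ * n) =
      fun n => coeff n F * (z ^ ℓ) ^ n := by
    funext n
    simp only [Function.comp_apply, coeff_expand_mul, pow_mul]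
  rw [e] at h
  exact h.symm

/-- the norm: `∏ j < ℓ, F (ζ ^ j z) = P (z ^ ℓ)` -/
theorem Ev.nmP {ℓ : ℕ} (hl : ℓ ≠ 0) {ζ : ℂ} (hζ : ζ ^ ℓ = 1) (hζ' : ∀ n, ζ ^ n = 1 → ℓ ∣ n)
    {v : ℕ → ℂ} (h : ∀ j ∈ Finset.range ℓ, Ev F (ζ ^ j * z) (v j)) :
    Ev (H236.nmP ℓ ζ F) (z ^ ℓ) (∏ j ∈ Finset.range ℓ, v j) := by
  rw [← ev_expand_iff hl, expand_nmP hl hζ hζ', nm]
  exact Ev.prod _ fun j hj => (h j hj).rescale

/-- the formal multilinear series of a power series -/
noncomputable def fms (F : PowerSeries ℂ) : FormalMultilinearSeries ℂ ℂ ℂ :=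
  FormalMultilinearSeries.ofScalars ℂ fun n => coeff n F

theorem fms_coeff (F : PowerSeries ℂ) (n : ℕ) : (fms F).coeff n = coeff n F := by
  simp [fms, FormalMultilinearSeries.coeff_ofScalars]

theorem hasFPS (h : Ev F z a) (hz : z ≠ 0) :
    HasFPowerSeriesAt (fms F).sum (fms F) 0 ∧ ∀ᶠ w in 𝓝 (0 : ℂ), Ev F w ((fms F).sum w) := by
  have hs : Summable fun n => ‖fms F n‖ * (‖z‖₊ : ℝ) ^ n := by
    have := summable_norm_iff.2 h.summable
    refine this.congr fun n => ?_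
    rw [norm_mul, norm_pow, fms, FormalMultilinearSeries.ofScalars_norm]
    rfl
  have hr := (fms F).le_radius_of_summable hs
  have hz' : (0 : ENNReal) < (‖z‖₊ : ENNReal) := by simpa using hz
  have hp : 0 < (fms F).radius := lt_of_lt_of_le hz' hr
  have h1 := (fms F).hasFPowerSeriesOnBall hp
  refine ⟨h1.hasFPowerSeriesAt, ?_⟩
  filter_upwards [Metric.eball_mem_nhds (0 : ℂ) hp] with w hw
  have h2 := h1.hasSum hw
  rw [zero_add] at h2
  have e : (fun n => coeff n F * w ^ n) = fun n => fms F n fun _ => w := by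
    funext n
    rw [fms, FormalMultilinearSeries.ofScalars_apply_eq, smul_eq_mul]
  rw [Ev, e]
  exact h2

/-- power series with the same sum near `0` are equal -/
theorem ev_unique (h : ∀ᶠ w in 𝓝[≠] (0 : ℂ), ∃ v, Ev F w v ∧ Ev G w v) : F = G := by
  obtain ⟨w, ⟨v, hF, hG⟩, hw⟩ := (h.and self_mem_nhdsWithin).exists
  obtain ⟨pF, eF⟩ := hasFPS hF hw
  obtain ⟨pG, eG⟩ := hasFPS hG hw
  have h1 : ∀ᶠ w in 𝓝[≠] (0 : ℂ), (fms F).sum w = (fms G).sum w := by
    filter_upwards [h, eF.filter_mono nhdsWithin_le_nhds, eG.filter_mono nhdsWithin_le_nhds]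
      with w ⟨v, h1, h2⟩ h3 h4
    rw [← h1.unique h3, ← h2.unique h4]
  have h2 : ∀ᶠ w in 𝓝 (0 : ℂ), (fms F).sum w = (fms G).sum w :=
    (pF.analyticAt.frequently_eq_iff_eventually_eq pG.analyticAt).1 h1.frequently
  have h3 := (pF.congr h2).eq_formalMultilinearSeries pG
  ext n
  rw [← fms_coeff F, ← fms_coeff G, h3]

/-- the inverse series -/
theorem ev_inv {v : ℂ → ℂ} (h : ∀ᶠ w in 𝓝[≠] (0 : ℂ), Ev F w (v w))
    (h0 : constantCoeff F ≠ 0) : ∀ᶠ w in 𝓝[≠] (0 : ℂ), v w ≠ 0 ∧ Ev F⁻¹ w (v w)⁻¹ := by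
  obtain ⟨w, hF, hw⟩ := (h.and self_mem_nhdsWithin).exists
  obtain ⟨pF, eF⟩ := hasFPS hF hw
  have h00 : (fms F).sum 0 = constantCoeff F := by
    have := pF.coeff_zero (fun _ => 0)
    rw [← this, fms, FormalMultilinearSeries.ofScalars_apply_eq, pow_zero, smul_eq_mul, mul_one,
      coeff_zero_eq_constantCoeff_apply]
  have hne : (fms F).sum 0 ≠ 0 := by rw [h00]; exact h0
  obtain ⟨p, hp⟩ := pF.analyticAt.inv hne
  -- the series of the inverse
  obtain ⟨G, hG⟩ : ∃ G : PowerSeries ℂ, G = PowerSeries.mk fun n => p.coeff n := ⟨_, rfl⟩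
  have eG : ∀ᶠ w in 𝓝 (0 : ℂ), Ev G w ((fms F).sum w)⁻¹ := by
    have h1 := hp.eventually_hasSum
    filter_upwards [h1] with w hw
    rw [zero_add] at hw
    have e : (fun n => coeff n G * w ^ n) = fun n => p n fun _ => w := by
      funext n
      rw [hG, coeff_mk, FormalMultilinearSeries.apply_eq_pow_smul_coeff, smul_eq_mul, mul_comm]
    rw [Ev, e]
    exact hw
  have hcont : ∀ᶠ w in 𝓝 (0 : ℂ), (fms F).sum w ≠ 0 :=
    pF.analyticAt.continuousAt.eventually_ne hne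
  have hFG : F * G = 1 := by
    apply ev_unique
    filter_upwards [eF.filter_mono nhdsWithin_le_nhds, eG.filter_mono nhdsWithin_le_nhds,
      hcont.filter_mono nhdsWithin_le_nhds] with w h1 h2 h3
    refine ⟨1, ?_, Ev.one⟩
    have := h1.mul h2
    rwa [mul_inv_cancel₀ h3] at this
  have hinv : G = F⁻¹ := by
    rw [PowerSeries.eq_inv_iff_mul_eq_one h0, mul_comm]
    exact hFG
  filter_upwards [h, eF.filter_mono nhdsWithin_le_nhds, eG.filter_mono nhdsWithin_le_nhds,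
    hcont.filter_mono nhdsWithin_le_nhds] with w h1 h2 h3 h4
  rw [h1.unique h2, ← hinv]
  exact ⟨h4, h3⟩

end ev

/-! ### expansions at the cusp -/

/-- `f τ = t ^ m F (t)` near the cusp, `t = exp (2 π i τ / N)` -/
def Exq (N : ℕ) (m : ℤ) (F : PowerSeries ℂ) (f : ℍ → ℂ) : Prop :=
  ∀ᶠ τ : ℍ in atImInfty, Ev F (qParam N τ) (f τ * qParam N τ ^ (-m))

section exq
variable {N : ℕ} {m m' : ℤ} {F G : PowerSeries ℂ} {f g : ℍ → ℂ}

theorem qne (N : ℕ) (τ : ℂ) : qParam N τ ≠ 0 := qParam_ne_zero _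

theorem Exq.mul (hf : Exq N m F f) (hg : Exq N m' G g) :
    Exq N (m + m') (F * G) (fun τ => f τ * g τ) := by
  filter_upwards [hf, hg] with τ h1 h2
  have h := h1.mul h2
  have e : f τ * g τ * qParam N τ ^ (-(m + m')) =
      f τ * qParam N τ ^ (-m) * (g τ * qParam N τ ^ (-m')) := by
    rw [neg_add, zpow_add₀ (qne N τ)]; ring
  rw [e]
  exact h

theorem Exq.one : Exq N 0 1 fun _ => 1 := by
  refine Eventually.of_forall fun τ => ?_
  simpa using Ev.one (z := qParam N τ)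

theorem Exq.pow (hf : Exq N m F f) (n : ℕ) : Exq N (n * m) (F ^ n) (fun τ => f τ ^ n) := by
  filter_upwards [hf] with τ h1
  have h := h1.pow n
  have e : f τ ^ n * qParam N τ ^ (-(n * m)) = (f τ * qParam N τ ^ (-m)) ^ n := by
    rw [mul_pow, ← zpow_natCast (qParam N τ ^ (-m)), ← zpow_mul]
    congr 2
    ring
  rw [e]
  exact h

theorem Exq.congr (hf : Exq N m F f) (h : f =ᶠ[atImInfty] g) : Exq N m F g := by
  filter_upwards [hf, h] with τ h1 h2
  rw [← h2]
  exact h1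

/-- eventually at the cusp is eventually in the punctured disc -/
theorem eventually_punctured (hN : N ≠ 0) {P : ℂ → Prop}
    (h : ∀ᶠ τ : ℍ in atImInfty, P (qParam N τ)) : ∀ᶠ w in 𝓝[≠] (0 : ℂ), P w := by
  obtain ⟨A, hA⟩ := (atImInfty_mem _).1 h
  have hN' : (0 : ℝ) < N := by exact_mod_cast Nat.pos_of_ne_zero hN
  have hr : 0 < Real.exp (-2 * Real.pi * max A 1 / N) := Real.exp_pos _
  have h1 : ∀ᶠ w in 𝓝[≠] (0 : ℂ), ‖w‖ < Real.exp (-2 * Real.pi * max A 1 / N) := by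
    refine Filter.Eventually.filter_mono nhdsWithin_le_nhds ?_
    filter_upwards [Metric.ball_mem_nhds (0 : ℂ) hr] with w hw
    simpa using hw
  filter_upwards [h1, self_mem_nhdsWithin] with w hw hw0
  have hw0' : w ≠ 0 := hw0
  have e := qParam_right_inv hN'.ne' hw0'
  have h2 : max A 1 < (invQParam N w).im := by
    rw [← norm_qParam_lt_iff hN', e]; exact hw
  have h3 : 0 < (invQParam N w).im := lt_trans (by positivity) h2
  have h4 := hA ⟨invQParam N w, h3⟩ (le_trans (le_max_left _ _) h2.le)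
  have h5 : P (qParam N (invQParam N w)) := h4
  rwa [e] at h5

theorem tendsto_q (hN : N ≠ 0) :
    Tendsto (fun τ : ℍ => qParam N τ) atImInfty (𝓝[≠] (0 : ℂ)) := by
  have hN' : (0 : ℝ) < N := by exact_mod_cast Nat.pos_of_ne_zero hN
  exact (qParam_tendsto hN').comp tendsto_coe_atImInfty

theorem Exq.unique (hN : N ≠ 0) (hf : Exq N m F f) (hg : Exq N m G f) : F = G := by
  apply ev_unique
  apply eventually_punctured hN
  filter_upwards [hf, hg] with τ h1 h2
  exact ⟨_, h1, h2⟩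

theorem Exq.inv (hN : N ≠ 0) (hf : Exq N m F f) (h0 : constantCoeff F ≠ 0) :
    (∀ᶠ τ in atImInfty, f τ ≠ 0) ∧ Exq N (-m) F⁻¹ (fun τ => (f τ)⁻¹) := by
  have h1 : ∀ᶠ w in 𝓝[≠] (0 : ℂ), Ev F w (∑' n, coeff n F * w ^ n) := by
    apply eventually_punctured hN
    filter_upwards [hf] with τ h
    exact h.summable.hasSum
  have h2 := (tendsto_q hN).eventually (ev_inv h1 h0)
  have h3 : ∀ᶠ τ in atImInfty, f τ ≠ 0 ∧
      Ev F⁻¹ (qParam N τ) ((f τ)⁻¹ * qParam N τ ^ (-(-m))) := by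
    filter_upwards [hf, h2] with τ h3 ⟨h4, h5⟩
    have e : ∑' n, coeff n F * qParam N τ ^ n = f τ * qParam N τ ^ (-m) := h3.tsum_eq
    rw [e] at h4 h5
    refine ⟨left_ne_zero_of_mul h4, ?_⟩
    rw [mul_inv, ← zpow_neg] at h5
    exact h5
  exact ⟨h3.mono fun _ h => h.1, h3.mono fun _ h => h.2⟩

/-- maps of the upper half plane which scale the imaginary part -/
theorem tendsto_scale {c : ℝ} (hc : 0 < c) {u : ℍ → ℍ} (hu : ∀ τ, (u τ).im = c * τ.im) :
    Tendsto u atImInfty atImInfty := by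
  refine tendsto_comap_iff.2 ?_
  have e : UpperHalfPlane.im ∘ u = fun τ : ℍ => c * τ.im := funext hu
  rw [e]
  exact (tendsto_comap (f := UpperHalfPlane.im)).const_mul_atTop hc

/-- **f(ℓ τ)** -/
theorem Exq.mulTau {ℓ : ℕ} (hl : ℓ ≠ 0) (hf : Exq N m F f) {u : ℍ → ℍ}
    (hu : ∀ τ : ℍ, ((u τ : ℍ) : ℂ) = ℓ * (τ : ℂ)) :
    Exq N (ℓ * m) (expand ℓ hl F) (fun τ => f (u τ)) := by
  have hl' : (0 : ℝ) < ℓ := by exact_mod_cast Nat.pos_of_ne_zero hl
  have him : ∀ τ, (u τ).im = ℓ * τ.im := by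
    intro τ
    have := congrArg Complex.im (hu τ)
    simpa using this
  have h1 := (tendsto_scale hl' him).eventually hf
  filter_upwards [h1] with τ h
  have e : qParam N (u τ) = qParam N τ ^ ℓ := by
    rw [hu, qParam, qParam, ← Complex.exp_nat_mul]
    congr 1
    ring
  rw [e] at h
  rw [ev_expand_iff]
  have e2 : qParam N τ ^ (-(ℓ * m)) = (qParam N τ ^ ℓ) ^ (-m) := by
    rw [← zpow_natCast, ← zpow_mul]
    congr 1
    ring
  rw [e2]
  exact h

/-- **the norm**: `∏ j < ℓ, f ((τ + N j) / ℓ)`, `ℓ` odd -/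
theorem Exq.norm {ℓ : ℕ} (hl : Odd ℓ) (hN : N ≠ 0) (hf : Exq N m F f) {u : ℕ → ℍ → ℍ}
    (hu : ∀ j, ∀ τ : ℍ, ((u j τ : ℍ) : ℂ) = ((τ : ℂ) + N * j) / ℓ) :
    Exq N m (nmP ℓ (Complex.exp (2 * Real.pi * Complex.I / ℓ)) F)
      (fun τ => ∏ j ∈ Finset.range ℓ, f (u j τ)) := by
  have hl0 : ℓ ≠ 0 := by rintro rfl; exact absurd hl (by decide)
  have hl' : (0 : ℝ) < ℓ := by exact_mod_cast Nat.pos_of_ne_zero hl0
  have hlC : (ℓ : ℂ) ≠ 0 := by exact_mod_cast hl0
  have hNC : ((N : ℝ) : ℂ) ≠ 0 := by exact_mod_cast hN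
  have hprim := Complex.isPrimitiveRoot_exp ℓ hl0
  obtain ⟨ζ, hζe⟩ : ∃ ζ, ζ = Complex.exp (2 * Real.pi * Complex.I / ℓ) := ⟨_, rfl⟩
  rw [← hζe] at hprim ⊢
  have him : ∀ j τ, (u j τ).im = (ℓ : ℝ)⁻¹ * τ.im := by
    intro j τ
    have := congrArg Complex.im (hu j τ)
    have e : (((τ : ℂ) + N * j) / ℓ).im = (ℓ : ℝ)⁻¹ * τ.im := by
      have e1 : ((τ : ℂ) + N * j) / ℓ = (((ℓ : ℝ)⁻¹ : ℝ) : ℂ) * ((τ : ℂ) + ((N * j : ℝ) : ℂ)) := by
        push_cast; field_simp
      rw [e1, Complex.im_ofReal_mul, Complex.add_im, Complex.ofReal_im, add_zero]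
      rfl
    rw [← e]
    exact this
  have h1 : ∀ᶠ τ : ℍ in atImInfty, ∀ j ∈ Finset.range ℓ,
      Ev F (qParam N (u j τ)) (f (u j τ) * qParam N (u j τ) ^ (-m)) := by
    rw [Filter.eventually_all_finset]
    intro j _
    exact (tendsto_scale (inv_pos.2 hl') (him j)).eventually hf
  filter_upwards [h1] with τ h
  -- `s = exp (2 π i τ / (N ℓ))`
  obtain ⟨s, hs⟩ : ∃ s, s = qParam N ((τ : ℂ) / ℓ) := ⟨_, rfl⟩
  have hs0 : s ≠ 0 := by rw [hs]; exact qParam_ne_zero _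
  have e1 : ∀ j, qParam N (u j τ) = ζ ^ j * s := by
    intro j
    rw [hu, hs, hζe, qParam, qParam, ← Complex.exp_nat_mul, ← Complex.exp_add]
    congr 1
    field_simp
    push_cast
    ring
  have e2 : s ^ ℓ = qParam N τ := by
    rw [hs, qParam, qParam, ← Complex.exp_nat_mul]
    congr 1
    field_simp
  have h2 : ∀ j ∈ Finset.range ℓ, Ev F (ζ ^ j * s) (f (u j τ) * (ζ ^ j * s) ^ (-m)) := by
    intro j hj
    have := h j hj
    rwa [e1 j] at this
  have h3 := Ev.nmP hl0 hprim.pow_eq_one (fun n hn => (hprim.pow_eq_one_iff_dvd n).1 hn) h2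
  rw [e2] at h3
  have e3 : ∏ j ∈ Finset.range ℓ, (f (u j τ) * (ζ ^ j * s) ^ (-m)) =
      (∏ j ∈ Finset.range ℓ, f (u j τ)) * qParam N τ ^ (-m) := by
    rw [Finset.prod_mul_distrib]
    congr 1
    have e4 : ∏ j ∈ Finset.range ℓ, (ζ ^ j * s) ^ (-m) =
        (∏ j ∈ Finset.range ℓ, (ζ ^ j * s)) ^ (-m) := Finset.prod_zpow _ _ _
    rw [e4, Finset.prod_mul_distrib, prod_zeta hl hprim.pow_eq_one, one_mul, Finset.prod_const,
      Finset.card_range, e2]
  rw [e3] at h3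
  exact h3

/-- Mathlib's `q`-expansion of a bounded holomorphic `N`-periodic function -/
theorem exq_qExpansion (hN : N ≠ 0) (hfper : Function.Periodic (f ∘ ofComplex) (N : ℝ))
    (hfhol : MDiff f) (hfbdd : IsBoundedAtImInfty f) :
    Exq N 0 (qExpansion (N : ℝ) f) f := by
  have hN' : (0 : ℝ) < N := by exact_mod_cast Nat.pos_of_ne_zero hN
  refine Eventually.of_forall fun τ => ?_
  have h := UpperHalfPlane.hasSum_qExpansion hN' hfper hfhol hfbdd τ
  rw [neg_zero, zpow_zero, mul_one, Ev]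
  simpa using h

end exq

/-! ### change of the coefficients -/

section mp
variable {O O' : Type*} [CommRing O] [CommRing O'] (φ : O →+* O') (ℓ : ℕ) (ζ : O)
  (F : PowerSeries O)

theorem nm_map : map φ (nm ℓ ζ F) = nm ℓ (φ ζ) (map φ F) := by
  rw [nm, nm, map_prod]
  refine Finset.prod_congr rfl fun j _ => ?_
  rw [← rescale_map, map_pow]

theorem nmP_map : map φ (nmP ℓ ζ F) = nmP ℓ (φ ζ) (map φ F) := by
  ext n
  rw [coeff_map, nmP, nmP, coeff_mk, coeff_mk, ← nm_map, coeff_map]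

end mp

end Vale.Agent.P022.H236
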