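import Mathlib

/-!
# P022-L3, chapter G, row [ESF]: the formal half of Eichler-Shimura (q-expansions)

`O` a commutative ring, `I` an ideal with `ℓ ∈ I`, `ζ ^ ℓ = 1`, `ζ - 1 ∈ I`, `σ : O →+* O` with
`σ a - a ^ ℓ ∈ I`.  `nm ℓ ζ f = ∏ j < ℓ, f (ζ ^ j X)`, `nmP ℓ ζ f` the series `P` with
`P (X ^ ℓ) = nm ℓ ζ f`.  `Cg I f g`: congruence of power series modulo `I`.
-/

set_option autoImplicit false

namespace Vale.Agent.P022.H236

open PowerSeries

/-- congruence of power series modulo an ideal -/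
def Cg {O : Type*} [CommRing O] (I : Ideal O) (f g : PowerSeries O) : Prop :=
  ∀ n, coeff n f - coeff n g ∈ I

section cg
variable {O : Type*} [CommRing O] {I : Ideal O} {f g h f' g' : PowerSeries O}

theorem cg_iff : Cg I f g ↔ map (Ideal.Quotient.mk I) f = map (Ideal.Quotient.mk I) g := by
  constructor
  · intro h
    ext n
    rw [coeff_map, coeff_map]
    exact Ideal.Quotient.eq.2 (h n)
  · intro h n
    have := congrArg (coeff n) h
    rw [coeff_map, coeff_map] at this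
    exact Ideal.Quotient.eq.1 this

theorem Cg.refl (f : PowerSeries O) : Cg I f f := cg_iff.2 rfl
theorem Cg.symm (h : Cg I f g) : Cg I g f := cg_iff.2 (cg_iff.1 h).symm
theorem Cg.trans (h : Cg I f g) (h' : Cg I g f') : Cg I f f' :=
  cg_iff.2 ((cg_iff.1 h).trans (cg_iff.1 h'))

theorem Cg.mul (h : Cg I f g) (h' : Cg I f' g') : Cg I (f * f') (g * g') := by
  rw [cg_iff] at *
  rw [map_mul, map_mul, h, h']

theorem Cg.pow (h : Cg I f g) (n : ℕ) : Cg I (f ^ n) (g ^ n) := by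
  rw [cg_iff] at *
  rw [map_pow, map_pow, h]

theorem Cg.prod {ι : Type*} (s : Finset ι) {F G : ι → PowerSeries O}
    (h : ∀ i ∈ s, Cg I (F i) (G i)) : Cg I (∏ i ∈ s, F i) (∏ i ∈ s, G i) := by
  rw [cg_iff, map_prod, map_prod]
  exact Finset.prod_congr rfl fun i hi => cg_iff.1 (h i hi)

/-- congruent series, one with unit constant coefficient: the quotient is congruent to one -/
theorem Cg.div_one (h : Cg I f g) (u : Oˣ) (hu : constantCoeff g = u) :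
    Cg I (f * invOfUnit g u) 1 := by
  have h1 : g * invOfUnit g u = 1 := mul_invOfUnit g u hu
  have h2 := h.mul (Cg.refl (I := I) (invOfUnit g u))
  rwa [h1] at h2

/-- inverses of congruent series -/
theorem Cg.inv (h : Cg I f g) (u u' : Oˣ) (hu : constantCoeff f = u)
    (hu' : constantCoeff g = u') : Cg I (invOfUnit f u) (invOfUnit g u') := by
  have h1 : f * invOfUnit f u = 1 := mul_invOfUnit f u hu
  have h2 : g * invOfUnit g u' = 1 := mul_invOfUnit g u' hu'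
  have h3 := (h.mul (Cg.refl (I := I) (invOfUnit f u * invOfUnit g u'))).symm
  have e1 : f * (invOfUnit f u * invOfUnit g u') = invOfUnit g u' := by
    rw [← mul_assoc, h1, one_mul]
  have e2 : g * (invOfUnit f u * invOfUnit g u') = invOfUnit f u := by
    rw [mul_comm (invOfUnit f u), ← mul_assoc, h2, one_mul]
  rwa [e1, e2] at h3

end cg

/-- **(E0)** the `ℓ`-th power in characteristic `ℓ` -/
theorem pow_char {R : Type*} [CommRing R] (ℓ : ℕ) [hl : Fact ℓ.Prime] [CharP R ℓ]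
    (f : PowerSeries R) :
    f ^ ℓ = expand ℓ hl.out.ne_zero (map (frobenius R ℓ) f) := by
  have : ExpChar R ℓ := ExpChar.prime hl.out
  rw [← map_expand]
  exact (MvPowerSeries.map_frobenius_expand ℓ hl.out.ne_zero (f := f)).symm

theorem coeff_pow_char {R : Type*} [CommRing R] (ℓ : ℕ) [hl : Fact ℓ.Prime] [CharP R ℓ]
    (f : PowerSeries R) (n : ℕ) :
    coeff n (f ^ ℓ) = if ℓ ∣ n then (coeff (n / ℓ) f) ^ ℓ else 0 := by
  rw [pow_char, coeff_expand]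
  simp only [coeff_map, frobenius_def]

section norm
variable {O : Type*} [CommRing O]

/-- `∏ j < ℓ, f (ζ ^ j X)` -/
noncomputable def nm (ℓ : ℕ) (ζ : O) (f : PowerSeries O) : PowerSeries O :=
  ∏ j ∈ Finset.range ℓ, rescale (ζ ^ j) f

/-- the series `P` with `P (X ^ ℓ) = nm ℓ ζ f` -/
noncomputable def nmP (ℓ : ℕ) (ζ : O) (f : PowerSeries O) : PowerSeries O :=
  mk fun n => coeff (ℓ * n) (nm ℓ ζ f)

theorem nm_mul (ℓ : ℕ) (ζ : O) (f g : PowerSeries O) : nm ℓ ζ (f * g) = nm ℓ ζ f * nm ℓ ζ g := by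
  simp only [nm, map_mul, Finset.prod_mul_distrib]

theorem nm_one (ℓ : ℕ) (ζ : O) : nm ℓ ζ (1 : PowerSeries O) = 1 := by
  simp [nm]

theorem constantCoeff_nm (ℓ : ℕ) (ζ : O) (f : PowerSeries O) :
    constantCoeff (nm ℓ ζ f) = constantCoeff f ^ ℓ := by
  have h : ∀ a : O, constantCoeff (rescale a f) = constantCoeff f := by
    intro a
    rw [← coeff_zero_eq_constantCoeff_apply, coeff_rescale, pow_zero, one_mul,
      coeff_zero_eq_constantCoeff_apply]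
  rw [nm, map_prod]
  simp only [h, Finset.prod_const, Finset.card_range]

/-- the norm is invariant under `X ↦ ζ X` -/
theorem rescale_nm {ℓ : ℕ} {ζ : O} (hζ : ζ ^ ℓ = 1) (f : PowerSeries O) :
    rescale ζ (nm ℓ ζ f) = nm ℓ ζ f := by
  rw [nm, map_prod]
  have h : ∀ j, rescale ζ (rescale (ζ ^ j) f) = rescale (ζ ^ (j + 1)) f := by
    intro j
    rw [rescale_rescale, pow_succ]
  simp only [h]
  have h1 := Finset.prod_range_succ' (fun j => rescale (ζ ^ j) f) ℓ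
  have h2 := Finset.prod_range_succ (fun j => rescale (ζ ^ j) f) ℓ
  rw [h2] at h1
  simp only [hζ, pow_zero, rescale_one, RingHom.id_apply] at h1
  rcases Nat.eq_zero_or_pos ℓ with rfl | hl
  · simp
  obtain ⟨k, rfl⟩ : ∃ k, ℓ = k + 1 := ⟨ℓ - 1, by omega⟩
  rw [Finset.prod_range_succ, Finset.prod_range_succ', hζ, pow_zero]

/-- coefficients of the norm outside the multiples of `ℓ` vanish -/
theorem coeff_nm_of_not_dvd [IsDomain O] {ℓ : ℕ} {ζ : O} (hζ : ζ ^ ℓ = 1)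
    (hζ' : ∀ n, ζ ^ n = 1 → ℓ ∣ n) (f : PowerSeries O) {n : ℕ} (hn : ¬ ℓ ∣ n) :
    coeff n (nm ℓ ζ f) = 0 := by
  have h := congrArg (coeff n) (rescale_nm hζ f)
  rw [coeff_rescale] at h
  have h1 : (ζ ^ n - 1) * coeff n (nm ℓ ζ f) = 0 := by rw [sub_mul, one_mul, h, sub_self]
  rcases mul_eq_zero.1 h1 with h2 | h2
  · exact absurd (hζ' n (sub_eq_zero.1 h2)) hn
  · exact h2

/-- **(E1a)** `P (X ^ ℓ) = ∏ j < ℓ, f (ζ ^ j X)` -/
theorem expand_nmP [IsDomain O] {ℓ : ℕ} (hl : ℓ ≠ 0) {ζ : O} (hζ : ζ ^ ℓ = 1)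
    (hζ' : ∀ n, ζ ^ n = 1 → ℓ ∣ n) (f : PowerSeries O) :
    expand ℓ hl (nmP ℓ ζ f) = nm ℓ ζ f := by
  ext n
  rw [coeff_expand]
  split_ifs with h
  · obtain ⟨m, rfl⟩ := h
    rw [Nat.mul_div_cancel_left _ (Nat.pos_of_ne_zero hl), nmP, coeff_mk]
  · exact (coeff_nm_of_not_dvd hζ hζ' f h).symm

theorem expand_injective {ℓ : ℕ} (hl : ℓ ≠ 0) {f g : PowerSeries O}
    (h : expand ℓ hl f = expand ℓ hl g) : f = g := by
  ext n
  have := congrArg (coeff (ℓ * n)) h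
  rwa [coeff_expand_mul, coeff_expand_mul] at this

theorem nmP_mul [IsDomain O] {ℓ : ℕ} (hl : ℓ ≠ 0) {ζ : O} (hζ : ζ ^ ℓ = 1)
    (hζ' : ∀ n, ζ ^ n = 1 → ℓ ∣ n) (f g : PowerSeries O) :
    nmP ℓ ζ (f * g) = nmP ℓ ζ f * nmP ℓ ζ g := by
  apply expand_injective hl
  rw [map_mul, expand_nmP hl hζ hζ', expand_nmP hl hζ hζ', expand_nmP hl hζ hζ', nm_mul]

theorem constantCoeff_nmP (ℓ : ℕ) (ζ : O) (f : PowerSeries O) :
    constantCoeff (nmP ℓ ζ f) = constantCoeff f ^ ℓ := by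
  rw [← coeff_zero_eq_constantCoeff_apply, nmP, coeff_mk, mul_zero,
    coeff_zero_eq_constantCoeff_apply, constantCoeff_nm]

variable {I : Ideal O}

/-- modulo `I` the norm is the `ℓ`-th power -/
theorem nm_cg_pow {ℓ : ℕ} {ζ : O} (hζ : ζ - 1 ∈ I) (f : PowerSeries O) :
    Cg I (nm ℓ ζ f) (f ^ ℓ) := by
  have h : ∀ j ∈ Finset.range ℓ, Cg I (rescale (ζ ^ j) f) f := by
    intro j _ n
    rw [coeff_rescale]
    have h1 : Ideal.Quotient.mk I (ζ ^ j) = 1 := by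
      have : Ideal.Quotient.mk I ζ = 1 := by
        rw [← map_one (Ideal.Quotient.mk I)]; exact Ideal.Quotient.eq.2 hζ
      rw [map_pow, this, one_pow]
    apply Ideal.Quotient.eq.1
    rw [map_mul, map_pow, h1, one_pow, one_mul]
  have := Cg.prod (I := I) (Finset.range ℓ) h
  simpa [nm, Finset.prod_const] using this

/-- the `ℓ`-th power modulo `I ∋ ℓ` -/
theorem pow_cg {ℓ : ℕ} [hl : Fact ℓ.Prime] (hI : (ℓ : O) ∈ I) (f : PowerSeries O) (σ : O →+* O)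
    (hσ : ∀ a, σ a - a ^ ℓ ∈ I) : Cg I (f ^ ℓ) (expand ℓ hl.out.ne_zero (map σ f)) := by
  rcases eq_or_ne I ⊤ with rfl | hne
  · intro n; trivial
  have : Nontrivial (O ⧸ I) := Ideal.Quotient.nontrivial_iff.2 hne
  have : CharP (O ⧸ I) ℓ := by
    have h0 : ((ℓ : ℕ) : O ⧸ I) = 0 := by
      have := Ideal.Quotient.eq_zero_iff_mem.2 hI
      simpa using this
    exact (CharP.charP_iff_prime_eq_zero hl.out).2 h0
  rw [cg_iff, map_pow, pow_char, map_expand]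
  congr 1
  ext n
  rw [coeff_map, coeff_map, coeff_map, coeff_map, frobenius_def, ← map_pow]
  exact (Ideal.Quotient.eq.2 (hσ _)).symm

/-- **(E1b)** `P = f ^ σ` modulo `I` -/
theorem nmP_cg {ℓ : ℕ} [hl : Fact ℓ.Prime] (hI : (ℓ : O) ∈ I) {ζ : O} (hζ : ζ - 1 ∈ I)
    (f : PowerSeries O) (σ : O →+* O) (hσ : ∀ a, σ a - a ^ ℓ ∈ I) :
    Cg I (nmP ℓ ζ f) (map σ f) := by
  have h := (nm_cg_pow hζ f).trans (pow_cg hI f σ hσ)
  intro n
  have := h (ℓ * n)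
  rw [coeff_expand_mul] at this
  rw [nmP, coeff_mk]
  exact this

/-- **(E2)** `g = h ^ σ` gives `g (X ^ ℓ) = h ^ ℓ` modulo `I` -/
theorem expand_cg {ℓ : ℕ} [hl : Fact ℓ.Prime] (hI : (ℓ : O) ∈ I) (h : PowerSeries O)
    (σ : O →+* O) (hσ : ∀ a, σ a - a ^ ℓ ∈ I) :
    Cg I (expand ℓ hl.out.ne_zero (map σ h)) (h ^ ℓ) := (pow_cg hI h σ hσ).symm

/-- **(E3)** formal Eichler-Shimura: `P(f) · g (X ^ ℓ) = f ^ σ · h ^ ℓ` modulo `I`, `g = h ^ σ` -/
theorem es_cg {ℓ : ℕ} [hl : Fact ℓ.Prime] (hI : (ℓ : O) ∈ I) {ζ : O} (hζ : ζ - 1 ∈ I)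
    (f h : PowerSeries O) (σ : O →+* O) (hσ : ∀ a, σ a - a ^ ℓ ∈ I) :
    Cg I (nmP ℓ ζ f * expand ℓ hl.out.ne_zero (map σ h)) (map σ f * h ^ ℓ) :=
  (nmP_cg hI hζ f σ hσ).mul (expand_cg hI h σ hσ)

/-- **(E3')** the quotient is congruent to one -/
theorem es_quot {ℓ : ℕ} [hl : Fact ℓ.Prime] (hI : (ℓ : O) ∈ I) {ζ : O} (hζ : ζ - 1 ∈ I)
    (f h : PowerSeries O) (σ : O →+* O) (hσ : ∀ a, σ a - a ^ ℓ ∈ I) (u : Oˣ)
    (hu : constantCoeff (map σ f * h ^ ℓ) = u) :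
    Cg I (nmP ℓ ζ f * expand ℓ hl.out.ne_zero (map σ h) * invOfUnit (map σ f * h ^ ℓ) u) 1 :=
  (es_cg hI hζ f h σ hσ).div_one u hu

/-- the norm of `X`: the roots of unity contribute `1` for `ℓ` odd -/
theorem prod_zeta {M : Type*} [CommMonoid M] {ℓ : ℕ} (hl : Odd ℓ) {ζ : M} (hζ : ζ ^ ℓ = 1) :
    ∏ j ∈ Finset.range ℓ, ζ ^ j = 1 := by
  obtain ⟨k, rfl⟩ := hl
  rw [Finset.prod_pow_eq_pow_sum, Finset.sum_range_id]
  have : (2 * k + 1) * (2 * k + 1 - 1) / 2 = (2 * k + 1) * k := by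
    rw [Nat.add_sub_cancel, mul_comm 2 k, ← mul_assoc, Nat.mul_div_cancel _ (by norm_num)]
  rw [this, pow_mul, hζ, one_pow]

/-- the norm of `X ^ m` -/
theorem nm_X_pow {ℓ : ℕ} (hl : Odd ℓ) {ζ : O} (hζ : ζ ^ ℓ = 1) (m : ℕ) :
    nm ℓ ζ (X ^ m : PowerSeries O) = X ^ (m * ℓ) := by
  have h : ∀ a : O, rescale a (X ^ m : PowerSeries O) = C (a ^ m) * X ^ m := by
    intro a
    rw [map_pow, rescale_X, mul_pow, map_pow]
  simp only [nm, h, Finset.prod_mul_distrib, Finset.prod_const, Finset.card_range]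
  rw [← map_prod, Finset.prod_pow, prod_zeta hl hζ, one_pow, map_one, one_mul, pow_mul]

theorem nmP_X_pow [IsDomain O] {ℓ : ℕ} (hl : Odd ℓ) {ζ : O} (hζ : ζ ^ ℓ = 1)
    (hζ' : ∀ n, ζ ^ n = 1 → ℓ ∣ n) (m : ℕ) :
    nmP ℓ ζ (X ^ m : PowerSeries O) = X ^ m := by
  have h0 : ℓ ≠ 0 := by rintro rfl; exact absurd hl (by decide)
  apply expand_injective h0
  rw [expand_nmP h0 hζ hζ', nm_X_pow hl hζ, map_pow, expand_X, ← pow_mul, mul_comm]

end norm

end Vale.Agent.P022.H236
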